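import Vale.Agent.Lib.P174.Defs
import Vale.Agent.Lib.P174.Triangular
import Vale.Agent.Lib.P174.Nonsing

/-!
# P174: triangular systems with positive pivots over an arbitrary group

Let `G` be any group and let `w_0, ..., w_{m-1}` be words over `G` in unknowns `x_0, ..., x_{n-1}`.
Suppose every equation `w_i` has a pivot unknown `x_{σ i}` which occurs in `w_i`, occurs there only
with exponent `+1` (never as an inverse), and does not occur at all in the earlier equations
`w_k`, `k < i`.  All other unknowns may occur in `w_i` with arbitrary exponents.
Then the system is nonsingular and it is solvable over `G`.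
-/

namespace Vale.Agent.Results.P174.TriangularPositive

open Vale.Agent.Lib.P174

universe u

theorem result {G : Type u} [Group G] {m n : ℕ} (W : Fin m → List (Letter G n))
    (σ : Fin m → Fin n)
    (hpos : ∀ i, Letter.var (σ i) ∈ W i ∧ Letter.varInv (σ i) ∉ W i)
    (htri : ∀ i k, k < i → Letter.var (σ i) ∉ W k ∧ Letter.varInv (σ i) ∉ W k) :
    Nonsingular (fun i => wordVal (W i)) ∧ SolvableOver (fun i => wordVal (W i)) :=
  ⟨triangular_nonsingular W σ hpos htri, triangular_solvable W σ hpos htri⟩

end Vale.Agent.Results.P174.TriangularPositive
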